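import Mathlib.Analysis.CStarAlgebra.Classes
import Mathlib.Analysis.CStarAlgebra.Spectrum
import Mathlib.Analysis.CStarAlgebra.ContinuousLinearMap
import Mathlib.Analysis.InnerProductSpace.Adjoint
import Mathlib.Analysis.InnerProductSpace.Projection.Basic
import Mathlib.Analysis.Normed.Operator.Compact.Basic
import Mathlib.Order.Filter.Ultrafilter.Basic

open Filter Topology

namespace Vale.Agent.P101

/-- The bounded sequences of `A` that asymptotically commute with `A` along `ω`. -/
def centralSeq (A : Type) [CStarAlgebra A] (ω : Ultrafilter ℕ) : StarSubalgebra ℂ (ℕ → A) where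
  carrier := {x | (∃ C, ∀ n, ‖x n‖ ≤ C) ∧
    ∀ a, Tendsto (fun n => x n * a - a * x n) ω (𝓝 0)}
  mul_mem' := by
    rintro x y ⟨⟨C, hC⟩, hx⟩ ⟨⟨D, hD⟩, hy⟩
    refine ⟨⟨C * D, fun n => (norm_mul_le _ _).trans
      (mul_le_mul (hC n) (hD n) (norm_nonneg _) ((norm_nonneg _).trans (hC n)))⟩, fun a => ?_⟩
    have h : ∀ n, (x * y) n * a - a * (x * y) n
        = x n * (y n * a - a * y n) + (x n * a - a * x n) * y n := by
      intro n; simp only [Pi.mul_apply]; noncomm_ring
    simp only [h]
    rw [← add_zero (0 : A)]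
    refine Tendsto.add ?_ ?_
    · refine squeeze_zero_norm (fun n => (norm_mul_le _ _).trans
        (mul_le_mul_of_nonneg_right (hC n) (norm_nonneg _))) ?_
      simpa using (hy a).norm.const_mul C
    · refine squeeze_zero_norm (fun n => (norm_mul_le _ _).trans
        (mul_le_mul_of_nonneg_left (hD n) (norm_nonneg _))) ?_
      simpa using (hx a).norm.mul_const D
  one_mem' := ⟨⟨‖(1 : A)‖, fun n => le_rfl⟩, fun a => by simp⟩
  add_mem' := by
    rintro x y ⟨⟨C, hC⟩, hx⟩ ⟨⟨D, hD⟩, hy⟩
    refine ⟨⟨C + D, fun n => (norm_add_le _ _).trans (add_le_add (hC n) (hD n))⟩, fun a => ?_⟩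
    convert (hx a).add (hy a) using 1
    · funext n; simp only [Pi.add_apply]; noncomm_ring
    · simp
  zero_mem' := ⟨⟨0, fun n => by simp⟩, fun a => by simp⟩
  algebraMap_mem' := by
    intro c
    refine ⟨⟨‖algebraMap ℂ A c‖, fun n => le_rfl⟩, fun a => ?_⟩
    have h : ∀ n : ℕ, algebraMap ℂ (ℕ → A) c n * a - a * algebraMap ℂ (ℕ → A) c n = 0 := by
      intro n; simp [Algebra.commutes]
    simp only [h]; exact tendsto_const_nhds
  star_mem' := by
    rintro x ⟨⟨C, hC⟩, hx⟩
    refine ⟨⟨C, fun n => by simpa using hC n⟩, fun a => ?_⟩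
    have h : ∀ n, star x n * a - a * star x n = -star (x n * star a - star a * x n) := by
      intro n; simp [Pi.star_apply, star_sub, star_mul]
    simp only [h]
    simpa using ((hx (star a)).star).neg

end Vale.Agent.P101

namespace Vale.Agent.Results.P101.NoCharTypeI

open Vale.Agent.P101

theorem result (A : Type) [CStarAlgebra A] (H : Type) [NormedAddCommGroup H]
    [InnerProductSpace ℂ H] [CompleteSpace H] (π : A →⋆ₐ[ℂ] (H →L[ℂ] H))
    (irr : ∀ T : H →L[ℂ] H, (∀ a, π a * T = T * π a) → ∃ c : ℂ, T = c • 1)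
    (hk : ∃ a : A, π a ≠ 0 ∧ IsCompactOperator (π a)) (ω : Ultrafilter ℕ) :
    ∃ χ : centralSeq A ω →⋆ₐ[ℂ] ℂ,
      ∀ x : centralSeq A ω, Tendsto (fun n => (x : ℕ → A) n) ω (𝓝 0) → χ x = 0 := by
  classical
  obtain ⟨a, ha0, hac⟩ := hk
  obtain ⟨ξ, hξ⟩ : ∃ ξ, π a ξ ≠ 0 := by
    by_contra h
    push Not at h
    exact ha0 (ContinuousLinearMap.ext fun v => by simpa using h v)
  have hπn : ∀ b : A, ‖π b‖ ≤ ‖b‖ := fun b => NonUnitalStarAlgHom.norm_apply_le π b
  -- a central sequence converges strongly to a scalar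
  have key : ∀ x : centralSeq A ω, ∃ c : ℂ,
      ∀ v, Tendsto (fun n => π ((x : ℕ → A) n) v) ω (𝓝 (c • v)) := by
    rintro ⟨x, ⟨C, hC⟩, hx⟩
    have hC0 : 0 ≤ C := (norm_nonneg _).trans (hC 0)
    have hb : ∀ n v, ‖π (x n) v‖ ≤ C * ‖v‖ := fun n v =>
      ((π (x n)).le_opNorm v).trans
        (mul_le_mul_of_nonneg_right ((hπn _).trans (hC n)) (norm_nonneg _))
    let D : Submodule ℂ H :=
      { carrier := {v | ∃ w, Tendsto (fun n => π (x n) v) ω (𝓝 w)}
        add_mem' := by
          rintro u v ⟨p, hp⟩ ⟨q, hq⟩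
          exact ⟨p + q, by simpa using hp.add hq⟩
        zero_mem' := ⟨0, by simp⟩
        smul_mem' := by
          rintro c v ⟨p, hp⟩
          exact ⟨c • p, by simpa using hp.const_smul c⟩ }
    have Dcl : IsClosed (D : Set H) := by
      rw [← closure_subset_iff_isClosed]
      intro v hv
      rw [Metric.mem_closure_iff] at hv
      have hc : Cauchy (Filter.map (fun n => π (x n) v) (ω : Filter ℕ)) := by
        refine Metric.cauchy_iff.2 ⟨inferInstance, fun ε hε => ?_⟩
        obtain ⟨u, ⟨w, hw⟩, hu⟩ := hv (ε / (4 * (C + 1))) (by positivity)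
        have hcu : C * ‖v - u‖ < ε / 4 := by
          rw [dist_eq_norm] at hu
          have : (C + 1) * ‖v - u‖ < ε / 4 := by
            have := mul_lt_mul_of_pos_left hu (show (0:ℝ) < C + 1 by linarith)
            calc _ < (C + 1) * (ε / (4 * (C + 1))) := this
              _ = ε / 4 := by field_simp
          nlinarith [norm_nonneg (v - u)]
        refine ⟨_, image_mem_map (Metric.tendsto_nhds.1 hw (ε / 4) (by linarith)), ?_⟩
        rintro _ ⟨n, hn, rfl⟩ _ ⟨m, hm, rfl⟩
        simp only [Set.mem_ofPred_eq, dist_eq_norm] at hn hm ⊢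
        have e : π (x n) v - π (x m) v = π (x n) (v - u) + (π (x n) u - w)
            - (π (x m) u - w) - π (x m) (v - u) := by
          simp only [map_sub]; abel
        rw [e]
        have := hb n (v - u)
        have := hb m (v - u)
        have := norm_sub_le (π (x n) (v - u) + (π (x n) u - w) - (π (x m) u - w))
          (π (x m) (v - u))
        have := norm_sub_le (π (x n) (v - u) + (π (x n) u - w)) (π (x m) u - w)
        have := norm_add_le (π (x n) (v - u)) (π (x n) u - w)
        linarith
      obtain ⟨w, hw⟩ := CompleteSpace.complete hc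
      exact ⟨w, hw⟩
    have comm0 : ∀ b v, Tendsto (fun n => π (x n) (π b v) - π b (π (x n) v)) ω (𝓝 0) := by
      intro b v
      refine squeeze_zero_norm (fun n => ?_) (by simpa using (hx b).norm.mul_const ‖v‖)
      have e : π (x n) (π b v) - π b (π (x n) v) = π (x n * b - b * x n) v := by
        simp [map_sub, map_mul]
      rw [e]
      exact ((π _).le_opNorm v).trans (mul_le_mul_of_nonneg_right (hπn _) (norm_nonneg _))
    have inv : ∀ b v, v ∈ D → π b v ∈ D := by
      rintro b v ⟨w, hw⟩
      refine ⟨π b w, ?_⟩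
      simpa using (comm0 b v).add (((π b).continuous.tendsto w).comp hw)
    have η_mem : π a ξ ∈ D := by
      obtain ⟨K, hK, hKs⟩ := hac.image_closedBall_subset_compact (C * ‖ξ‖)
      have hle : (Filter.map (fun n => π a (π (x n) ξ)) (ω : Filter ℕ)) ≤ 𝓟 K := by
        refine le_principal_iff.2 (mem_map.2 (univ_mem' fun n => ?_))
        exact hKs ⟨π (x n) ξ, by simpa using hb n ξ, rfl⟩
      obtain ⟨w, _, hw⟩ := hK.ultrafilter_le_nhds (ω.map fun n => π a (π (x n) ξ)) hle
      refine ⟨w, ?_⟩
      have hw' : Tendsto (fun n => π a (π (x n) ξ)) ω (𝓝 w) := hw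
      simpa using (comm0 a ξ).add hw'
    have : CompleteSpace D := Dcl.completeSpace_coe
    have : D.HasOrthogonalProjection := inferInstance
    have inv' : ∀ b v, v ∈ Dᗮ → π b v ∈ Dᗮ := by
      intro b v hv
      rw [Submodule.mem_orthogonal] at hv ⊢
      intro u hu
      rw [← ContinuousLinearMap.adjoint_inner_left, ← ContinuousLinearMap.star_eq_adjoint,
        ← map_star]
      exact hv _ (inv _ _ hu)
    obtain ⟨c, hc⟩ := irr D.starProjection fun b => by
      ext v
      have h1 : D.starProjection v ∈ D := Submodule.starProjection_apply_mem D v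
      have h2 : v - D.starProjection v ∈ Dᗮ := Submodule.sub_starProjection_mem_orthogonal v
      have := Submodule.eq_starProjection_of_mem_orthogonal (inv b _ h1)
        (by simpa [map_sub] using inv' b _ h2)
      simpa using this.symm
    have hc1 : c = 1 := by
      have h1 : D.starProjection (π a ξ) = π a ξ :=
        Submodule.starProjection_eq_self_iff.2 η_mem
      rw [hc] at h1
      simp only [smul_apply, one_apply_eq_self] at h1
      exact sub_eq_zero.1 ((smul_eq_zero.1 (by rw [sub_smul, h1, one_smul, sub_self] :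
        (c - 1) • π a ξ = 0)).resolve_right hξ)
    have top : ∀ v, v ∈ D := fun v => by
      have := Submodule.starProjection_apply_mem D v
      rw [hc, hc1] at this
      simpa using this
    choose T hT using top
    have Tadd : ∀ u v, T (u + v) = T u + T v := fun u v =>
      tendsto_nhds_unique (hT (u + v)) (by simpa using (hT u).add (hT v))
    have Tsmul : ∀ (c : ℂ) v, T (c • v) = c • T v := fun c v =>
      tendsto_nhds_unique (hT (c • v)) (by simpa using (hT v).const_smul c)
    let L : H →L[ℂ] H := LinearMap.mkContinuous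
      { toFun := T, map_add' := Tadd, map_smul' := Tsmul } C
      (fun v => le_of_tendsto (hT v).norm (Eventually.of_forall fun n => hb n v))
    obtain ⟨d, hd⟩ := irr L fun b => by
      ext v
      have h := (comm0 b v).add (((π b).continuous.tendsto (T v)).comp (hT v))
      exact (tendsto_nhds_unique (hT (π b v)) (by simpa [L] using h)).symm
    refine ⟨d, fun v => ?_⟩
    have : L v = d • v := by rw [hd]; simp
    rw [← this]
    exact hT v
  choose χ hχ using key
  set η := π a ξ
  have eq_of : ∀ (x : centralSeq A ω) (c : ℂ), Tendsto (fun n => π ((x : ℕ → A) n) η) ω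
      (𝓝 (c • η)) → χ x = c := fun x c h =>
    smul_left_injective ℂ hξ (tendsto_nhds_unique (hχ x η) h)
  refine ⟨{ toFun := χ, map_one' := ?_, map_mul' := ?_, map_zero' := ?_, map_add' := ?_,
            commutes' := ?_, map_star' := ?_ }, ?_⟩
  · exact eq_of _ _ (by simp)
  · intro x y
    refine eq_of _ _ ?_
    have hC := x.2.1
    obtain ⟨C, hC⟩ := hC
    have h0 : Tendsto (fun n => π ((x : ℕ → A) n) (π ((y : ℕ → A) n) η - χ y • η)) ω (𝓝 0) := by
      refine squeeze_zero_norm (fun n => ((π _).le_opNorm _).trans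
        (mul_le_mul_of_nonneg_right ((hπn _).trans (hC n)) (norm_nonneg _))) ?_
      simpa using ((hχ y η).sub_const (χ y • η)).norm.const_mul C
    simpa [map_mul, map_sub, smul_smul, mul_comm] using h0.add ((hχ x η).const_smul (χ y))
  · exact eq_of _ _ (by simp)
  · intro x y
    exact eq_of _ _ (by simpa [add_smul] using (hχ x η).add (hχ y η))
  · intro c
    exact eq_of _ _ (by simp [Algebra.algebraMap_eq_smul_one])
  · intro x
    have h1 : Tendsto (fun n => inner ℂ η (π ((x : ℕ → A) n) η)) ω
        (𝓝 (χ x * inner ℂ η η)) := by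
      rw [← inner_smul_right]; exact tendsto_const_nhds.inner (hχ x η)
    have h2 : Tendsto (fun n => inner ℂ η (π (star ((x : ℕ → A) n)) η)) ω
        (𝓝 (χ (star x) * inner ℂ η η)) := by
      rw [← inner_smul_right]; exact tendsto_const_nhds.inner (hχ (star x) η)
    have h3 := (continuous_star.tendsto _).comp h1
    have e : ∀ n, star (inner ℂ η (π ((x : ℕ → A) n) η))
        = inner ℂ η (π (star ((x : ℕ → A) n)) η) := by
      intro n
      rw [map_star, ContinuousLinearMap.star_eq_adjoint,
        ContinuousLinearMap.adjoint_inner_right]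
      exact inner_conj_symm _ _
    simp only [Function.comp_def, e] at h3
    have := tendsto_nhds_unique h2 h3
    rw [star_mul', show star (inner ℂ η η) = inner ℂ η η from inner_conj_symm _ _] at this
    exact mul_right_cancel₀ (inner_self_ne_zero.2 hξ) this
  · intro x hx
    refine eq_of x 0 ?_
    rw [zero_smul]
    refine squeeze_zero_norm (fun n => ((π _).le_opNorm _).trans
      (mul_le_mul_of_nonneg_right (hπn _) (norm_nonneg _))) ?_
    simpa using hx.norm.mul_const ‖η‖

end Vale.Agent.Results.P101.NoCharTypeI
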