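import Vale.Agent.P101.Homs
import Vale.Agent.P101.Completion
import Vale.Agent.P101.TensorUnique
import Vale.Agent.P101.StatementBridge

/-!
The Kirchberg-Rørdam character question: a unital separable C⋆-algebra whose central sequence
algebra has no character absorbs the Jiang-Su algebra.
-/

set_option maxSynthPendingDepth 3

open Filter TopologicalSpace
open scoped ComplexOrder

universe u

namespace Vale.Agent.Results.P101.NoCharZStable

open Vale.Agent.P101 Vale.Agent.P101.Statement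

theorem result : ∃ (Z : Type) (_ : CStarAlgebra Z), IsJiangSuAlgebra Z ∧
    ∀ (A : Type u) [CStarAlgebra A] [Nontrivial A] [SeparableSpace A] (ω : Ultrafilter ℕ),
      (ω : Filter ℕ) ≤ cofinite → ¬ HasCharacter A ω →
        IsZStable A Z ∧
          ∀ (B : Type u) [CStarAlgebra B] (α : A →⋆ₐ[ℂ] B) (β : Z →⋆ₐ[ℂ] B),
            IsTensor α β → Nonempty (A ≃⋆ₐ[ℂ] B) := by
  refine ⟨Limit.JS, inferInstance, isJiangSuAlgebra Limit.isJiangSu, ?_⟩
  intro A _ _ _ ω hω hno
  have hχ : IsEmpty (FO A ω →⋆ₐ[ℂ] ℂ) := ⟨fun χ ↦ hno (hasCharacter_of_hom χ)⟩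
  let _ := CStarAlgebra.spectralOrder (FO A ω)
  have _ := CStarAlgebra.spectralOrderedRing (FO A ω)
  have hstable : IsZStable A Limit.JS :=
    isZStable_of_homs (ω := ω) fun j ↦ exists_hom_stage (copyable_FO hω) hχ j
  refine ⟨hstable, fun B _ α β hB ↦ ?_⟩
  obtain ⟨α₀, β₀, h₀⟩ := hstable
  obtain ⟨⟨p, q, ψ, hψ, hdense⟩, -, -⟩ := Limit.isJiangSu
  obtain ⟨e, -, -⟩ := exists_equiv_of_isTensor p q ψ
    (fun j ↦ by have := (hψ j).1; omega) (fun j ↦ by have := (hψ j).2.1; omega)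
    (fun j ↦ (hψ j).2.2.2.1) (fun j ↦ (hψ j).2.2.2.2) hdense h₀ hB
  exact ⟨e⟩

end Vale.Agent.Results.P101.NoCharZStable
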